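import Vale.Agent.P007.Conclusion
import Vale.Agent.P007.Maximal

open MeasureTheory Filter Topology

namespace Vale.Agent.Results.P007.A0_CompositeCounterexample

open Vale.Agent.P007

theorem result (n : ℕ) (hn : 4 ≤ n) (hc : ¬ n.Prime) :
    ∃ d : ℕ → Datum n,
      (∀ i, ∀ x : (d i).K, x ∈ (d i).O ↔ IsIntegral ℤ x) ∧
      Tendsto (fun i => (d i).absDisc) atTop atTop ∧
      ∀ m : Measure (X n), IsInvariantProbability m →
        (∀ φ : ℕ → ℕ, ¬ WeaklyConverges (fun i => (d (φ i)).packetMeasure) m) ∧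
        (∀ (φ : ℕ → ℕ) (mu : ℕ → Measure (X n)),
          (∀ i, ∀ᵐ x ∂(mu i), ∃ S ∈ (d (φ i)).packet, x ∈ S) → ¬ WeaklyConverges mu m) ∧
        ∃ f : X n → ℝ, Continuous f ∧ HasCompactSupport f ∧ 0 < ∫ x, f x ∂m ∧
          (∀ i, ∫ x, f x ∂(d i).packetMeasure = 0) ∧
          ∀ i, ∀ S ∈ (d i).packet, ∀ x ∈ S, f x = 0 := by
  obtain ⟨a, b, ha, hb, rfl⟩ := (Nat.not_prime_iff_exists_mul_eq (by omega)).1 hc
  have ha2 : 2 ≤ a := by
    rcases Nat.lt_or_ge a 2 with h | h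
    · interval_cases a <;> omega
    · exact h
  have hb2 : 2 ≤ b := by
    rcases Nat.lt_or_ge b 2 with h | h
    · interval_cases b <;> omega
    · exact h
  obtain ⟨d, hmax, hdisc, C, hsmall⟩ := exists_maximal_seq a b ha2 hb2
  exact ⟨d, hmax, hdisc, fun m hm => counterexample_conclusion d C hsmall m hm⟩

end Vale.Agent.Results.P007.A0_CompositeCounterexample
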